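import Crest.Agent.X212.Grp76.Flo
import Crest.Agent.X212.Grp76.Est
import Crest.Agent.X212.Prm93.H
import Crest.Agent.X212.Map77.Fin
import Crest.Agent.X212.Nk89.Lv

-- ▼ part X212/Gb54/Abs
section

/-! The gauge algebra of a base connection which moves linearly with a parameter. -/

set_option autoImplicit false

noncomputable section

open Set Filter Topology Function

namespace Crest.Agent.X212.Gb54
open Grp76

variable {R B S C L T C' S' Z : Type*} [NormedAddCommGroup R] [NormedSpace ℝ R]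
  [NormedAddCommGroup B] [NormedSpace ℝ B] [NormedAddCommGroup S] [NormedSpace ℝ S]
  [NormedAddCommGroup C] [NormedSpace ℝ C] [NormedAddCommGroup L] [NormedSpace ℝ L]
  [NormedAddCommGroup T] [NormedSpace ℝ T] [NormedAddCommGroup C'] [NormedSpace ℝ C']
  [NormedAddCommGroup S'] [NormedSpace ℝ S'] [NormedAddCommGroup Z] [NormedSpace ℝ Z]

/-- `lb t u = u * b t`, `rb t u = b t * u` -/
structure TW (D : GA R B S C L) (T C' : Type*) [NormedAddCommGroup T] [NormedSpace ℝ T]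
    [NormedAddCommGroup C'] [NormedSpace ℝ C'] where
  lb : T →L[ℝ] R →L[ℝ] B
  rb : T →L[ℝ] R →L[ℝ] B
  e : C' ≃L[ℝ] C × T
  l_m : ∀ t u v, lb t (D.m u v) = D.l u (lb t v)
  r_m : ∀ t u v, rb t (D.m u v) = D.r v (rb t u)
  l_r : ∀ t u v, D.l u (rb t v) = D.r v (lb t u)
  sb_l : ∀ t u, D.sb (lb t u) = -rb t (D.st u)
  sb_r : ∀ t u, D.sb (rb t u) = -lb t (D.st u)

/-- products with `β + b t` -/
def xt (l : R →L[ℝ] B →L[ℝ] B) (lb : T →L[ℝ] R →L[ℝ] B) : R →L[ℝ] B × T →L[ℝ] B × T :=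
  ContinuousLinearMap.compL ℝ (B × T) B (B × T) (.inl ℝ B T) ∘L
    (l.flip ∘L .fst ℝ B T + lb ∘L .snd ℝ B T).flip

@[simp] theorem xt_apply (l : R →L[ℝ] B →L[ℝ] B) (lb : T →L[ℝ] R →L[ℝ] B) (u : R) (p : B × T) :
    xt l lb u p = (l u p.1 + lb p.2 u, 0) := rfl

namespace TW
variable {D : GA R B S C L} (X : TW D T C')

/-- **The gauge algebra with a moving base connection.** -/
def ga : GA R (B × T) S C' L where
  m := D.m
  st := D.st
  l := xt D.l X.lb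
  r := xt D.r X.rb
  sb := D.sb.prodMap (-.id ℝ T)
  del := .inl ℝ B T ∘L D.del
  a := D.a
  ds := D.ds
  pa := D.pa.prodMap (.id ℝ T) ∘L (X.e : C' →L[ℝ] C × T)
  ps := D.ps ∘L .fst ℝ C T ∘L (X.e : C' →L[ℝ] C × T)
  mk' := (X.e.symm : C × T →L[ℝ] C') ∘L (D.mk' ∘L (ContinuousLinearMap.fst ℝ B T).prodMap
    (.id ℝ S)).prod (.snd ℝ B T ∘L .fst ℝ _ S)
  j := D.j
  q := D.q
  m_assoc := D.m_assoc
  st_st := D.st_st
  st_m := D.st_m
  normal := D.normal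
  l_m u v b := by simp [D.l_m, X.l_m]
  r_m u v b := by simp [D.r_m, X.r_m]
  l_r u v b := by simp [D.l_r, X.l_r]
  del_m u v := by simp [D.del_m]
  sb_l u b := by simp [D.sb_l, X.sb_l]
  sb_r u b := by simp [D.sb_r, X.sb_r]
  sb_del u := by simp [D.sb_del]
  a_m := D.a_m
  ds_m := D.ds_m
  sb_pa x := by simp [Prod.map, D.sb_pa]
  mk_p x := by simp [Prod.map, D.mk_p]
  pa_mk b s h := by simp [Prod.map, D.pa_mk b.1 s (congrArg Prod.fst h)]
  ps_mk b s := by simp [D.ps_mk]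
  st_j := D.st_j
  q_j := D.q_j
  j_q := D.j_q

theorem pa_apply (x : C') : X.ga.pa x = (D.pa (X.e x).1, (X.e x).2) := rfl

theorem ps_apply (x : C') : X.ga.ps x = D.ps (X.e x).1 := rfl

theorem T_apply (x y : C') (u : R) : X.ga.T x y u =
    ((D.del u - (D.l u (D.pa (X.e x).1) + X.lb (X.e x).2 u) +
      (D.r u (D.pa (X.e y).1) + X.rb (X.e y).2 u), 0), D.a u (D.ps (X.e x).1) + D.ds u) :=
  Prod.ext (Prod.ext rfl (by simp [GA.T_apply, ga])) rfl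

/-- the group is the same -/
def g0 (g : X.ga.Gr) : D.Gr := g

/-- the group is the same -/
def g1 (g : D.Gr) : X.ga.Gr := g

theorem continuous_g0 : Continuous X.g0 := continuous_id

theorem dense_g0 {s : Set D.Gr} (h : Dense s) : Dense (X.g0 ⁻¹' s) := h

theorem t_smul (g : X.ga.Gr) (x : C') : (X.e (g • x)).2 = (X.e x).2 := by
  have h := congrArg (·.1.2) ((GA.smul_eq_iff g x _).1 rfl)
  simp only [T_apply, pa_apply, Prod.snd_sub] at h
  exact (sub_eq_zero.1 h.symm).symm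

theorem d_zero (w : C) (ξ : L) : (X.e (X.ga.d (X.e.symm (w, 0)) ξ)).1 = D.d w ξ :=
  D.ext_p ((congrArg Prod.fst (X.ga.pa_d _ ξ)).trans (by simp [ga, D.pa_d]))
    ((X.ga.ps_d _ ξ).trans (by simp [ga, D.ps_d]))

theorem propAt {x y : C'} (h : (X.e y).2 = (X.e x).2 → PropAt X.ga.Gr x y) :
    PropAt X.ga.Gr x y := fun xn g h1 h2 => by
  have c : Continuous fun x => (X.e x).2 := X.e.continuous.snd
  refine h (tendsto_nhds_unique ((c.tendsto y).comp h2) (((c.tendsto x).comp h1).congr fun n => ?_))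
    xn g h1 h2
  exact (X.t_smul _ _).symm

/-- `D'` is the gauge algebra of the base connection at `t` -/
structure Frz (t : T) (D' : GA R B S' C' L) (e' : S' ≃L[ℝ] S × T) : Prop where
  m : D'.m = D.m
  st : D'.st = D.st
  l : D'.l = D.l
  r : D'.r = D.r
  j : D'.j = D.j
  del : ∀ u, D'.del u = D.del u - X.lb t u + X.rb t u
  pa : ∀ x, D'.pa x = D.pa (X.e x).1
  ps : ∀ x, e' (D'.ps x) = (D.ps (X.e x).1, (X.e x).2)
  a : ∀ u s, e' (D'.a u s) = (D.a u (e' s).1, 0)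
  ds : ∀ u, e' (D'.ds u) = (D.ds u, 0)

namespace Frz
variable {X} {t : T} {D' : GA R B S' C' L} {e' : S' ≃L[ℝ] S × T} (h : X.Frz t D' e') {x y : C'}
include h

/-- the group is the same -/
def g (g : X.ga.Gr) : D'.Gr := ⟨g.v, by rw [GA.nn, h.m, h.st]; exact g.nn_v⟩

theorem T1 (hx : (X.e x).2 = t) (hy : (X.e y).2 = t) (u : R) :
    (D'.T x y u).1 = (X.ga.T x y u).1.1 := by
  rw [T_apply]
  simp only [GA.T_apply, h.l, h.r, h.del, h.pa, hx, hy]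
  abel

theorem T2 (u : R) : e' (D'.T x y u).2 = ((X.ga.T x y u).2, 0) := by
  rw [T_apply]
  simp [GA.T_apply, h.a, h.ds, h.ps]

theorem smul_eq (g : X.ga.Gr) (hx : (X.e x).2 = t) : h.g g • x = g • x := by
  have h1 := (GA.smul_eq_iff g x _).1 rfl
  have h2 := X.t_smul g x
  refine (GA.smul_eq_iff _ _ _).2 (Prod.ext ?_ (e'.injective ?_))
  · rw [h.T1 hx (h2.trans hx), h.pa, h.pa]
    exact congrArg (·.1.1) h1
  · rw [h.T2, map_sub, h.ps, h.ps, h2]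
    exact Prod.ext (congrArg (·.2) h1) (sub_self _).symm

theorem d_eq (hx : (X.e x).2 = t) (ξ : L) : X.ga.d x ξ = D'.d x ξ := by
  have h1 : X.ga.pa (X.ga.d x ξ) = -(X.ga.T x x (D.j ξ)).1 := X.ga.pa_d x ξ
  have h2 : X.ga.ps (X.ga.d x ξ) = (X.ga.T x x (D.j ξ)).2 := X.ga.ps_d x ξ
  refine D'.ext_p ?_ (e'.injective ?_)
  · rw [h.pa, show D'.pa (D'.d x ξ) = -(D'.T x x (D'.j ξ)).1 from D'.pa_d x ξ, h.T1 hx hx, h.j]
    exact congrArg Prod.fst h1
  · rw [h.ps, show D'.ps (D'.d x ξ) = (D'.T x x (D'.j ξ)).2 from D'.ps_d x ξ, h.T2, h.j]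
    exact Prod.ext h2 ((congrArg Prod.snd h1).trans (by simp [T_apply]))

theorem est (hx : (X.e x).2 = t) (hy : (X.e y).2 = t) {K : R →L[ℝ] Z} (a : D'.Est x y K) :
    X.ga.Est x y K := by
  obtain ⟨hK, ⟨M, hM⟩, c, hc⟩ := a
  let N : (B × T) × S →L[ℝ] B × S' := (ContinuousLinearMap.fst ℝ B T).prodMap
    ((e'.symm : S × T →L[ℝ] S') ∘L .inl ℝ S T)
  have hN : ∀ u, D'.T x y u = N (X.ga.T x y u) := fun u =>
    Prod.ext (h.T1 hx hy u) (e'.eq_symm_apply.2 (h.T2 u))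
  refine ⟨hK, ⟨M, fun g => hM (h.g g)⟩, |c| * (‖N‖ + 1), fun u => ?_⟩
  have h1 := N.le_opNorm (X.ga.T x y u)
  refine ((hc u).trans (mul_le_mul_of_nonneg_right (le_abs_self c) (by positivity))).trans ?_
  rw [mul_assoc, hN]
  refine mul_le_mul_of_nonneg_left ?_ (abs_nonneg c)
  nlinarith [norm_nonneg (X.ga.T x y u), mul_nonneg (norm_nonneg N) (norm_nonneg (K u))]

end Frz
end TW

end Crest.Agent.X212.Gb54
end
end

-- ▼ part X212/Gb54/Qb
section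

/-! The Sobolev gauge algebra of a base connection `W + b t`. -/

set_option autoImplicit false
set_option linter.unusedSectionVars false
noncomputable section
open scoped Manifold ContDiff Topology InnerProductSpace
open MeasureTheory Set Function Filter

namespace Crest.Agent.X212.Gb54
open An An.Pre Sob92 Wz78 Grp76 Prm93

variable {E : Type} [NormedAddCommGroup E] [NormedSpace ℝ E] [FiniteDimensional ℝ E]
  [MeasurableSpace E] [BorelSpace E]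
  {HM : Type} [TopologicalSpace HM] {I : ModelWithCorners ℝ E HM} [I.Boundaryless]
  {M : Type} [TopologicalSpace M] [ChartedSpace HM M] [IsManifold I ∞ M]
  [MeasurableSpace M] [T2Space M] [BorelSpace M] [SecondCountableTopology M]
  {ι : Type} [Fintype ι] {κ : Type} [Fintype κ] [DecidableEq κ]
  {T : Type} [NormedAddCommGroup T] [NormedSpace ℝ T]
  {Z : Type} [NormedAddCommGroup Z] [NormedSpace ℝ Z]

variable (Q : QB M ι κ) (F : Fr I M ι) (k : ℕ)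

/-- the base connection moved by `η` -/
abbrev fz (η : M → Fm ι (HS κ)) : QB M ι κ :=
  ⟨Q.h, Q.g, Q.c, Q.s, fun a x => Q.W a x + opL (η x a), Q.Φ⟩

/-- products with the form `η` -/
def bH (β : CL (HS κ) (CL (HS κ) (HS κ))) (η : M → Fm ι (HS κ)) : Q.R F k →L[ℝ] Q.Bf F k :=
  F.mulH k Q.h (Q.b F) (fun x => (onF ι β).flip (η x)) ∘L F.incl (k + 1) k Q.h

/-- a linear family of forms with values in `g` -/
structure Mov (b : T →ₗ[ℝ] M → Fm ι (HS κ)) : Prop where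
  sb : SB F.toPre univ fun t => b t
  c : ∀ t x, Q.c x (b t x) = b t x

variable {Q F k} (H : Q.Hyp F k)
include H

theorem hyp_fz {η : M → Fm ι (HS κ)} (hη : F.Cb η) (hc : ∀ x, Q.c x (η x) = η x) :
    (fz Q η).Hyp F k :=
  have h := fun x => (H.c_iff x _).1 (hc x)
  { H with
    cW := fun a => Cb_add (H.cW a) (Cb_clm (opL ∘L pj _ a) hη)
    par := fun u hu h1 a x => by
      have h2 := H.par u hu h1 a x
      have h3 := H.g_adc ((h x).1 a) (h1 x)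
      simp only [nab, QB.ad, ← adcL_apply, map_add, _root_.add_apply] at h2 h3 ⊢
      rw [← add_assoc, h2, h3, add_assoc]
    sk := fun a x y z => by
      simp only [_root_.add_apply, inner_add_left, inner_add_right, H.sk a x y z,
        (skw_iff _).2 ((H.g_iff x _).1 ((h x).1 a)).2 y z]
      ring
    WP := fun a x => by
      simp only [smul_add, Finset.sum_add_distrib, H.WP, ← map_smul, ← map_sum, (h x).2] }

theorem val_bH {β : CL (HS κ) (CL (HS κ) (HS κ))}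
    (hβ : Maps₂ Q.h (Q.b F) (Q.b F) fun _ => onF ι β) {η : M → Fm ι (HS κ)} (hη : F.Cb η)
    (hc : ∀ x, Q.c x (η x) = η x) (u : Q.R F k) (x : M) (a : ι) :
    F.val _ _ (bH Q F k β η u) x a = β (F.val _ _ u x) (η x a) := by
  rw [bH, ContinuousLinearMap.comp_apply, val_mulH H.hS H.k4 (Cb_clm _ hη)
    fun x v hv => hβ x v _ hv (H.m_pa x _ (hc x)), val_incl H.hS H.k4 k.le_succ]
  exact onF_apply _ _ _ _

variable {b : T →ₗ[ℝ] M → Fm ι (HS κ)} (hb : Mov Q F b)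
include hb

/-- products with `b t` -/
def bT {β : CL (HS κ) (CL (HS κ) (HS κ))} (hβ : Maps₂ Q.h (Q.b F) (Q.b F) fun _ => onF ι β) :
    T →L[ℝ] Q.R F k →L[ℝ] Q.Bf F k where
  toFun t := bH Q F k β (b t)
  map_add' s t := ContinuousLinearMap.ext fun u => H.ext fun x => PiLp.ext fun a => by
    rw [_root_.add_apply, val_add, Pi.add_apply, PiLp.add_apply]
    simp only [val_bH H hβ (hb.sb.cb _ trivial) (hb.c _)]
    rw [map_add b, Pi.add_apply, PiLp.add_apply, map_add]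
  map_smul' c t := ContinuousLinearMap.ext fun u => H.ext fun x => PiLp.ext fun a => by
    rw [_root_.smul_apply, val_smul, Pi.smul_apply, PiLp.smul_apply]
    simp only [val_bH H hβ (hb.sb.cb _ trivial) (hb.c _)]
    rw [map_smul b, Pi.smul_apply, PiLp.smul_apply, map_smul, RingHom.id_apply]
  cont := (continuousOn_univ.1 ((hb.sb.clm (onF ι β).flip).mulH H.cb H.bb fun t _ x v hv =>
    hβ x v _ hv (H.m_pa x _ (hb.c t x))).continuousOn).clm_comp continuous_const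

theorem val_lb (t : T) (u : Q.R F k) (x : M) (a : ι) :
    F.val _ _ (bT H hb H.m_l t u) x a = mA (F.val _ _ u x) (b t x a) :=
  val_bH H H.m_l (hb.sb.cb _ trivial) (hb.c _) u x a

theorem val_rb (t : T) (u : Q.R F k) (x : M) (a : ι) :
    F.val _ _ (bT H hb H.m_r t u) x a = mA (b t x a) (F.val _ _ u x) :=
  val_bH H H.m_r (hb.sb.cb _ trivial) (hb.c _) u x a

theorem tA_b (t : T) (x : M) (a : ι) : tA (b t x a) = -b t x a :=
  ((H.g_iff x _).1 (((H.c_iff x _).1 (hb.c t x)).1 a)).2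

variable (Z) in
/-- the moving part -/
def tw : TW (H.ga Z) T (Q.C F k (Z × T)) where
  lb := bT H hb H.m_l
  rb := bT H hb H.m_r
  e := ((ContinuousLinearEquiv.refl ℝ _).prodCongr (ContinuousLinearEquiv.prodAssoc ℝ _ Z T).symm).trans
    (ContinuousLinearEquiv.prodAssoc ℝ _ _ T).symm
  l_m t u v := H.ext fun x => PiLp.ext fun a => by
    simp only [QB.Hyp.ga, H.val_l, val_lb, H.val_m, mA_assoc]
  r_m t u v := H.ext fun x => PiLp.ext fun a => by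
    simp only [QB.Hyp.ga, H.val_r, val_rb, H.val_m, mA_assoc]
  l_r t u v := H.ext fun x => PiLp.ext fun a => by
    simp only [QB.Hyp.ga, H.val_l, H.val_r, val_lb, val_rb, mA_assoc]
  sb_l t u := H.ext fun x => PiLp.ext fun a => by
    rw [val_neg, Pi.neg_apply, PiLp.neg_apply]
    simp only [QB.Hyp.ga, H.val_sb, H.val_t, val_lb, val_rb, tA_mA, tA_b H hb, map_neg,
      _root_.neg_apply]
  sb_r t u := H.ext fun x => PiLp.ext fun a => by
    rw [val_neg, Pi.neg_apply, PiLp.neg_apply]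
    simp only [QB.Hyp.ga, H.val_sb, H.val_t, val_lb, val_rb, tA_mA, tA_b H hb, map_neg]

theorem e_apply (v : Q.C F k (Z × T)) :
    (tw Z H hb).e v = ((v.1, v.2.1, v.2.2.1), v.2.2.2) := rfl

/-- the hypotheses at the parameter `t` -/
theorem hyt (t : T) : (fz Q (b t)).Hyp F k := hyp_fz H (hb.sb.cb _ trivial) (hb.c t)

theorem frz (t : T) : (tw Z H hb).Frz t ((hyt H hb t).ga (Z × T))
    (ContinuousLinearEquiv.prodAssoc ℝ _ Z T).symm where
  m := rfl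
  st := rfl
  l := rfl
  r := rfl
  j := rfl
  del u := H.ext fun x => PiLp.ext fun a => by
    refine ((hyt H hb t).val_del u x a).trans ?_
    show _ = F.val _ _ (Q.delH F k u - bT H hb H.m_l t u + bT H hb H.m_r t u) x a
    rw [val_add, val_sub, Pi.add_apply, Pi.sub_apply, PiLp.add_apply, PiLp.sub_apply, H.val_del,
      val_lb, val_rb]
    simp only [nab, QB.ad, ← adcL_apply, map_add, _root_.add_apply]
    simp only [adcL_apply, adc_opL]
    abel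
  pa _ := rfl
  ps _ := rfl
  a _ _ := rfl
  ds _ := rfl

variable (Z) in
/-- **The gauge algebra of the moving base connection.** -/
abbrev gb := (tw Z H hb).ga

/-- the gauge transformation for the base connection at `t` -/
abbrev gt (t : T) (g : (gb Z H hb).Gr) : ((hyt H hb t).ga (Z × T)).Gr := (frz H hb t).g g

theorem smul_eq (g : (gb Z H hb).Gr) (v : Q.C F k (Z × T)) : gt H hb v.2.2.2 g • v = g • v :=
  (frz H hb _).smul_eq g rfl

theorem d_eq (v : Q.C F k (Z × T)) (ξ : Q.L F k) :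
    (gb Z H hb).d v ξ = ((hyt H hb v.2.2.2).ga (Z × T)).d v ξ := (frz H hb _).d_eq rfl ξ

/-- the value `ξ` of the gauge transformation `1 + ξ` -/
abbrev gv (g : (gb Z H hb).Gr) : M → HS κ := H.gv ((tw Z H hb).g0 g)

section act
variable (g : (gb Z H hb).Gr) (v : Q.C F k (Z × T))

theorem par_smul (x : M) (a : ι) : opL (F.D a (gv H hb g) x) +
    (Q.W a x + opL (b v.2.2.2 x a) + opL (F.val _ _ (g • v).1 x a)) * (1 + opL (gv H hb g x)) -
    (1 + opL (gv H hb g x)) * (Q.W a x + opL (b v.2.2.2 x a) + opL (F.val _ _ v.1 x a)) = 0 :=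
  smul_eq H hb g v ▸ (hyt H hb v.2.2.2).par_smul (gt H hb _ g) v x a

theorem spin_smul (x : M) :
    Q.spin F k (g • v) x = Q.spin F k v x + opL (gv H hb g x) (Q.spin F k v x) :=
  smul_eq H hb g v ▸ (hyt H hb v.2.2.2).spin_smul (gt H hb _ g) v x

theorem smul_z : (g • v).2.2 = v.2.2 := smul_eq H hb g v ▸ (hyt H hb v.2.2.2).smul_z _ v

theorem val_d1 (ξ : Q.L F k) (x : M) (a : ι) : F.val _ _ ((gb Z H hb).d v ξ).1 x a =
    -nab I F.e (fun a x => adc (Q.W a x + opL (b v.2.2.2 x a) + opL (F.val _ _ v.1 x a))) a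
      (F.val _ _ ξ) x := by
  rw [d_eq]; exact (hyt H hb v.2.2.2).val_d1 v ξ x a

theorem val_d2 (ξ : Q.L F k) (x : M) :
    F.val _ _ ((gb Z H hb).d v ξ).2.1 x = opL (F.val _ _ ξ x) (Q.spin F k v x) := by
  rw [d_eq]; exact (hyt H hb v.2.2.2).val_d2 v ξ x

theorem d_z (ξ : Q.L F k) : ((gb Z H hb).d v ξ).2.2 = 0 := by
  rw [d_eq]; exact (hyt H hb v.2.2.2).d_z v ξ

variable {g v}

theorem nice_gv {C : ℕ → ℝ} (hF : F.Tame C) (hv : Nice F.toPre (F.val _ _ v.1))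
    (hw : Nice F.toPre (F.val _ _ (g • v).1)) : Nice F.toPre (gv H hb g) :=
  (hyt H hb v.2.2.2).nice_gv (g := gt H hb _ g) hF hv ((smul_eq H hb g v).symm ▸ hw)

theorem nice_smul1 (hg : Nice F.toPre (gv H hb g)) (hv : Nice F.toPre (F.val _ _ v.1)) :
    Nice F.toPre (F.val _ _ (g • v).1) :=
  smul_eq H hb g v ▸ (hyt H hb v.2.2.2).nice_smul1 (g := gt H hb _ g) hg hv

theorem nice_smul2 (hg : Nice F.toPre (gv H hb g)) (hv : Nice F.toPre (F.val _ _ v.2.1)) :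
    Nice F.toPre (F.val _ _ (g • v).2.1) :=
  smul_eq H hb g v ▸ (hyt H hb v.2.2.2).nice_smul2 (g := gt H hb _ g) hg hv

end act

theorem est (hy : Nk89.Hdy F) {v w : Q.C F k (Z × T)} (ht : w.2.2.2 = v.2.2.2)
    (hv : Sm I (F.val _ _ v.1)) (hw : Sm I (F.val _ _ w.1)) :
    ∃ K : Q.R F k →L[ℝ] F.H 0 Q.h, (gb Z H hb).Est v w K :=
  let ⟨K, h⟩ := (hyt H hb v.2.2.2).est (Z := Z × T) hy hv hw
  ⟨K, (frz H hb _).est rfl ht h⟩

theorem propAt (hy : Nk89.Hdy F) {v w : Q.C F k (Z × T)} (hv : Sm I (F.val _ _ v.1))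
    (hw : Sm I (F.val _ _ w.1)) : PropAt (gb Z H hb).Gr v w :=
  (tw Z H hb).propAt fun ht => let ⟨_, h⟩ := est H hb hy ht hv hw; h.propAt

end Crest.Agent.X212.Gb54
end
end

-- ▼ part X212/Gb54/Gm

/-! The gauge group, the slice and the leaf `Slc` for a moving base connection. -/

set_option autoImplicit false
set_option linter.unusedSectionVars false
noncomputable section
open scoped Manifold ContDiff Topology InnerProductSpace
open MeasureTheory Set Function Filter Module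

namespace Crest.Agent.X212.Gb54
open An An.Pre Sob92 Wz78 Std94 Mod61 Slc61 Fred93
open Grp76 hiding gm1 gmE gmA aα aφ gm1_inj gm1_slice d_inj
open Map77 (Adj Aff IsD sig)

variable {E : Type} [NormedAddCommGroup E] [NormedSpace ℝ E] [FiniteDimensional ℝ E]
  [MeasurableSpace E] [BorelSpace E]
  {HM : Type} [TopologicalSpace HM] {I : ModelWithCorners ℝ E HM} [I.Boundaryless]
  {M : Type} [TopologicalSpace M] [ChartedSpace HM M] [IsManifold I ∞ M]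
  [MeasurableSpace M] [T2Space M] [BorelSpace M] [SecondCountableTopology M]
  {ι : Type} [Fintype ι] {lam : Type} [Fintype lam]
  {T : Type} [NormedAddCommGroup T] [NormedSpace ℝ T]
  {𝔉 : Fam I M ι lam T} (o : Ref 𝔉) {k : ℕ}

theorem mov : Mov (qb o) 𝔉.F0 o.b := ⟨o.sb, o.bP⟩

variable (h𝔉 : 𝔉.OK) (hk : 7 ≤ k) (r : ℕ)

/-- the moving part -/
abbrev twM := tw (EuclideanSpace ℂ (Fin r)) (hy1 o h𝔉 hk) (mov o)

/-- the gauge algebra of level `k` -/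
abbrev gbM := gb (EuclideanSpace ℂ (Fin r)) (hy1 o h𝔉 hk) (mov o)

variable {o r}

theorem aα (g : (gbM o h𝔉 hk r).Gr) (v : o.C r k) (x : M) (a : ι) :
    𝔉.F0.D a (uG (hy1 o h𝔉 hk) ((twM o h𝔉 hk r).g0 g)) x
    + (o.A v.2.2.2 a x + opL (𝔉.F0.val _ _ (g • v).1 x a)) ∘L
      uG (hy1 o h𝔉 hk) ((twM o h𝔉 hk r).g0 g) x
    - uG (hy1 o h𝔉 hk) ((twM o h𝔉 hk r).g0 g) x ∘L
      (o.A v.2.2.2 a x + opL (𝔉.F0.val _ _ v.1 x a)) = 0 := by
  have H := hy1 o h𝔉 hk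
  have h1 := par_smul H (mov o) g v x a
  have h2 := (o.connA h𝔉.B v.2.2.2).cc.par a x
  have h3 : 𝔉.F0.D a (uG H ((twM o h𝔉 hk r).g0 g)) x = dv I (𝔉.G0.F.e a) o.m.p x +
      opL (𝔉.F0.D a (H.gv ((twM o h𝔉 hk r).g0 g)) x) := by
    rw [h𝔉.e0, QB.Hyp.gv, ← H.D_opL _ a x]
    exact dv_add (o.conn.cc.sp x).md (opL.mdifferentiableAt.comp x (H.md_gv _ x))
  have h4 := Wz78.g_p (val_mem H h𝔉 v x a)
  have h5 := g_p' o.ok (val_mem H h𝔉 (g • v) x a)
  rw [h3]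
  simp only [uG, ← ContinuousLinearMap.mul_def, Ref.A, Md.addC] at h2 ⊢
  linear_combination (norm := noncomm_ring) h1 + h2 - h4 + h5

theorem aφ (g : (gbM o h𝔉 hk r).Gr) (v : o.C r k) (x : M) :
    o.Φ0 x + 𝔉.F0.val _ _ (g • v).2.1 x =
      uG (hy1 o h𝔉 hk) ((twM o h𝔉 hk r).g0 g) x (o.Φ0 x + 𝔉.F0.val _ _ v.2.1 x) := by
  have H := hy1 o h𝔉 hk
  refine (spin_smul H (mov o) g v x).trans ?_
  rw [← p_Pp h𝔉 (H.s_spin v x), uG, _root_.add_apply, p_Pp h𝔉 (H.s_spin v x)]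
  exact congrArg₂ (· + ·) (p_Pp h𝔉 (H.s_spin v x)).symm rfl

theorem az (g : (gbM o h𝔉 hk r).Gr) (v : o.C r k) : (g • v).2.2 = v.2.2 :=
  smul_z (hy1 o h𝔉 hk) (mov o) g v

theorem d_inj {v : o.C r k} (hs : ∀ g : (gbM o h𝔉 hk r).Gr, g • v = v → ∀ w : o.C r k, g • w = w) :
    Injective ((gbM o h𝔉 hk r).d v) :=
  (injective_iff_map_eq_zero _).2 fun ξ e => eff (hy1 o h𝔉 hk) h𝔉 fun w => by
    rw [← (twM o h𝔉 hk r).d_zero w ξ, (gbM o h𝔉 hk r).d_eq_zero hs e]; rfl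

theorem isD (y : Pnt o r) : IsD y ((gbM o h𝔉 hk r).d (y.pt k)) :=
  ⟨fun ξ x a => (val_d1 (hy1 o h𝔉 hk) (mov o) _ ξ x a).trans
      (by rw [y.val_α (k := k) (by omega)]; rfl),
    fun ξ x => (val_d2 (hy1 o h𝔉 hk) (mov o) _ ξ x).trans
      (by simp only [QB.spin, y.val_φ (k := k) (by omega)]), d_z (hy1 o h𝔉 hk) (mov o) _⟩

theorem est_pt (hy : Nk89.Hdy 𝔉.F0) (y : Pnt o r) :
    ∃ K : 𝔉.F0.H (k + 2) (Ph o) →L[ℝ] 𝔉.F0.H 0 (Ph o), (gbM o h𝔉 hk r).Est (y.pt k) (y.pt k) K :=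
  est (hy1 o h𝔉 hk) (mov o) hy rfl (nice_pt h𝔉 hk y).1.sm (nice_pt h𝔉 hk y).1.sm

variable (o r)

/-- **The gauge group without the circle.** -/
def gm1 (hy : Nk89.Hdy 𝔉.F0) (Al : (M → CL o.m.V o.m.V) → Circle → Prop)
    (h1 : ∀ w, dif o w ∈ Hs 𝔉.F0.toPre (Ph o) → Al w 1)
    (h2 : ∀ w c, Al w c → MEq I o.m o.m 𝔉.Om id (fun x b a => 𝔉.B.P b a x) 𝔉.B.l w →
      c = 1 ∧ dif o w ∈ Hs 𝔉.F0.toPre (Ph o)) : GrpM o r k Al where
  G := (gbM o h𝔉 hk r).Gr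
  L := 𝔉.F0.H (k + 2) o.Pg
  H := 𝔉.F0.H k o.Pg
  u g := uG (hy1 o h𝔉 hk) ((twM o h𝔉 hk r).g0 g)
  ζ _ := 1
  c1 g := (c1_u _ _).contMDiffOn
  uu g x _ := uu _ h𝔉 _ x
  cJ g x _ := (itx_eq (itx_u _ h𝔉 _ x)).2.2.2.1
  cρ g x _ a := ((itx_eq (itx_u _ h𝔉 _ x)).2.2.1 a).symm
  cj g x _ s := ((itx_eq (itx_u _ h𝔉 _ x)).2.2.2.2 s).symm
  umul g h x _ := umul _ h𝔉 ((twM o h𝔉 hk r).g0 g) ((twM o h𝔉 hk r).g0 h) x
  ζmul _ _ := (mul_one _).symm
  al g y y' e := h1 _ (by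
    have H := hy1 o h𝔉 hk
    have : dif o (uG H ((twM o h𝔉 hk r).g0 g)) = H.gv ((twM o h𝔉 hk r).g0 g) := funext fun x => by
      by_cases hx : x ∈ 𝔉.Om
      · rw [dif, indicator_of_mem hx, uG, add_sub_cancel_left, hsL_opL]
      · rw [dif, indicator_of_notMem hx, gv_off _ h𝔉 _ hx]
    rw [this]
    exact (hs_iff h𝔉).2 ⟨nice_gv H (mov o) h𝔉.tame.choose_spec (nice_pt h𝔉 hk y).1
      (e ▸ (nice_pt h𝔉 hk y').1), H.h_gv _⟩)
  aα g v x _ a := aα h𝔉 hk g v x a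
  aφ g v x := (aφ h𝔉 hk g v x).trans (by simp [cs])
  az g v := (az h𝔉 hk g v).trans (by simp)
  aff g := (gbM o h𝔉 hk r).aff g.v
  ρD g := rD (hy1 o h𝔉 hk) ((twM o h𝔉 hk r).g0 g)
  ρC g := rC (hy1 o h𝔉 hk) ((twM o h𝔉 hk r).g0 g)
  cD := (continuous_rD _).comp (twM o h𝔉 hk r).continuous_g0
  cC := (continuous_rC _).comp (twM o h𝔉 hk r).continuous_g0
  cζ := continuous_const
  cu x := (cu _ x).comp (twM o h𝔉 hk r).continuous_g0
  vD g h x := (val_rD _ h𝔉 hk _ h x).trans (by simp [cs])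
  vC g := val_rC _ h𝔉 hk _
  surj y y' w c _ ha he := by
    obtain ⟨rfl, h3⟩ := h2 w c ha he.m
    obtain ⟨ξ, hξ⟩ := h3 (k + 2) (by omega)
    obtain ⟨g, hg⟩ := exists_g (Z := EuclideanSpace ℂ (Fin r)) (hy1 o h𝔉 hk) h𝔉 he.m hξ
    exact ⟨(twM o h𝔉 hk r).g1 g, hg, rfl⟩
  dense y := ((twM o h𝔉 hk r).dense_g0 (hy1 o h𝔉 hk).dense_sm).mono fun g hg =>
    exists_pnt h𝔉 hk (nice_smul1 _ (mov o) (.of_hcs hg.1 hg.2) (nice_pt h𝔉 hk y).1)
      (nice_smul2 _ (mov o) (.of_hcs hg.1 hg.2) (nice_pt h𝔉 hk y).2) (by rw [az]; exact y.ht)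
  proper y y' := propAt _ (mov o) hy (nice_pt h𝔉 hk y).1.sm (nice_pt h𝔉 hk y').1.sm

/-- **The gauge group on a manifold with ends**, for any reference -/
def gmE (hy : Nk89.Hdy 𝔉.F0) : GrpM o r k (Nk89.AlE o) :=
  gm1 o h𝔉 hk r hy _ (fun _ h => ⟨rfl, h⟩) fun _ _ h _ => h

section one
variable (hy : Nk89.Hdy 𝔉.F0) (Al : (M → CL o.m.V o.m.V) → Circle → Prop)
    (h1 : ∀ w, dif o w ∈ Hs 𝔉.F0.toPre (Ph o) → Al w 1)
    (h2 : ∀ w c, Al w c → MEq I o.m o.m 𝔉.Om id (fun x b a => 𝔉.B.P b a x) 𝔉.B.l w →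
      c = 1 ∧ dif o w ∈ Hs 𝔉.F0.toPre (Ph o)) {v : o.C r k}

theorem gm1_slice (hf : (gm1 o h𝔉 hk r hy Al h1 h2).Free v) (hp : PropAt (gbM o h𝔉 hk r).Gr v v)
    (σ : o.C r k →L[ℝ] 𝔉.F0.H k o.Pg) (hb : Bijective (σ ∘L (gbM o h𝔉 hk r).d v)) :
    ∃ D : SliceData (gm1 o h𝔉 hk r hy Al h1 h2).G (gm1 o h𝔉 hk r hy Al h1 h2).L
      (gm1 o h𝔉 hk r hy Al h1 h2).H v, SlG o r (gm1 o h𝔉 hk r hy Al h1 h2) D ∧ D.σ = σ ∧
      D.d = (gbM o h𝔉 hk r).d v ∧ D.e = (gbM o h𝔉 hk r).e :=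
  ⟨(gbM o h𝔉 hk r).slice v σ hb hp hf, ⟨fun _ => rfl,
    σ.contDiff.comp (contDiff_id.sub contDiff_const), fun _ => (gbM o h𝔉 hk r).image_e_mem,
    fun x => ⟨_, ((opL ∘L 𝔉.F0.ev (k + 2) (Ph o) x).hasStrictFDerivAt.comp 0
      (gbM o h𝔉 hk r).hasStrict_e).const_add _⟩, _, hasStrictFDerivAt_const _ _⟩, rfl, rfl, rfl⟩

end one

variable {o r} {Fs : T → Fr I M ι} {n m : ℕ} {e : T → PtX M ι lam r n m} {d : ℤ}
  [FiniteDimensional ℝ T]

theorem slc_gm1 (h : Adj 𝔉 Fs) (he : Aff o Fs r n m e) (y : Pnt o r)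
    (hF : ∀ f : o.C r k → o.Y n m k, RepF e f → Fr ((fderiv ℝ f (y.pt k)).prod (sig Fs k y)) d)
    (hy : Nk89.Hdy 𝔉.F0) (hy' : Nk89.Hdy (Fs y.t)) (Al : (M → CL o.m.V o.m.V) → Circle → Prop)
    (h1 : ∀ w, dif o w ∈ Hs 𝔉.F0.toPre (Ph o) → Al w 1)
    (h2 : ∀ w c, Al w c → MEq I o.m o.m 𝔉.Om id (fun x b a => 𝔉.B.P b a x) 𝔉.B.l w →
      c = 1 ∧ dif o w ∈ Hs 𝔉.F0.toPre (Ph o)) :
    (gm1 o h.toOK hk r hy Al h1 h2).Slc e d y := by
  have := h.slc_of he hk (gm1 o h.toOK hk r hy Al h1 h2) y (K := PUnit)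
    (ContinuousLinearEquiv.prodUnique ℝ (𝔉.F0.H k o.Pg) PUnit :) (fun hf => ?_) hF
  · rwa [finrank_zero_of_subsingleton, Nat.cast_zero, sub_zero] at this
  obtain ⟨D, s, e, -⟩ := gm1_slice o h.toOK hk r hy Al h1 h2 hf
    ((gm1 o h.toOK hk r hy Al h1 h2).proper y y) (sig Fs k y)
    (h.sig_bij_hdy (by omega) hy' (isD h.toOK hk y) (d_inj h.toOK hk hf))
  exact ⟨0, D, e, s.nh, s.du, s.dζ⟩

/-- **`Slc` on a manifold with ends**, for any reference -/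
theorem slc_gmE (y : Pnt o r) (hy : Nk89.Hdy 𝔉.F0) (he : Aff o (Nk89.Fs 𝔉) r n m e)
    (hI : Nk89.Idx k e y d) :
    (gmE o h𝔉 hk r hy).Slc e (d + 2 * r + finrank ℝ T - 2 * n - m) y :=
  slc_gm1 hk (Map77.adj_rem h𝔉) he y (fun _ hf => hI.slc h𝔉 (by omega) hf) hy
    (Map77.hdy_rem h𝔉 hy y.ht) _ _ _

end Crest.Agent.X212.Gb54
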